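import Vale.Agent.P052.Core

/-!
Adding points at distance equal to the diameter, one dimension at a time.
-/

namespace Vale.Agent.P052

/-- The weighted form of the counting bound. -/
theorem sum_le_of_isUnionOfSmaller {E : Type*} [MetricSpace E] {ι : Type*} [Fintype ι] {c k : ℕ}
    (p : ι → E) (w : ι → ℕ) (D : ℝ)
    (hle : ∀ i j, dist (p i) (p j) ≤ D) (hD0 : 0 ≤ D)
    (hw : ∀ s : Finset ι, (∀ i ∈ s, ∀ j ∈ s, i ≠ j → dist (p i) (p j) < D) → ∑ i ∈ s, w i ≤ c)
    (hY : IsUnionOfSmaller (Set.range p) k) : ∑ i, w i ≤ c * k := by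
  classical
  obtain ⟨S, hS, hd⟩ := hY
  have hdiam : Metric.diam (Set.range p) ≤ D := by
    apply Metric.diam_le_of_forall_dist_le hD0
    rintro _ ⟨i, rfl⟩ _ ⟨j, rfl⟩
    exact hle i j
  have hfin : (Set.range p).Finite := Set.finite_range p
  have hcard : ∀ a : Fin k, ∑ i ∈ (Finset.univ.filter fun i => p i ∈ S a), w i ≤ c := by
    intro a
    apply hw
    intro i hi j hj _
    have hi' : p i ∈ S a := (Finset.mem_filter.1 hi).2
    have hj' : p j ∈ S a := (Finset.mem_filter.1 hj).2
    have hsub : S a ⊆ Set.range p := by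
      rw [← hS]; exact Set.subset_iUnion S a
    have hb : Bornology.IsBounded (S a) := (hfin.subset hsub).isBounded
    calc dist (p i) (p j) ≤ Metric.diam (S a) := Metric.dist_le_diam_of_mem hb hi' hj'
      _ < Metric.diam (Set.range p) := hd a
      _ ≤ D := hdiam
  have hex : ∀ i, ∃ a, p i ∈ S a := by
    intro i
    have : p i ∈ ⋃ a, S a := by rw [hS]; exact Set.mem_range_self i
    exact Set.mem_iUnion.1 this
  calc ∑ i, w i ≤ ∑ i, ∑ a : Fin k, if p i ∈ S a then w i else 0 := by
        refine Finset.sum_le_sum fun i _ => ?_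
        obtain ⟨a, ha⟩ := hex i
        calc w i = if p i ∈ S a then w i else 0 := by rw [if_pos ha]
          _ ≤ _ := Finset.single_le_sum (f := fun a : Fin k => if p i ∈ S a then w i else 0)
              (fun _ _ => Nat.zero_le _) (Finset.mem_univ a)
    _ = ∑ a : Fin k, ∑ i, if p i ∈ S a then w i else 0 := Finset.sum_comm
    _ = ∑ a : Fin k, ∑ i ∈ (Finset.univ.filter fun i => p i ∈ S a), w i := by
        refine Finset.sum_congr rfl fun a _ => ?_
        rw [Finset.sum_filter]
    _ ≤ ∑ _a : Fin k, c := Finset.sum_le_sum fun a _ => hcard a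
    _ = c * k := by simp [mul_comm]

/-- The point of `ℝ^(d+1)` with first coordinates `x` and last coordinate `t`. -/
noncomputable def emb {d : ℕ} (x : EuclideanSpace ℝ (Fin d)) (t : ℝ) :
    EuclideanSpace ℝ (Fin (d + 1)) :=
  WithLp.toLp 2 (Fin.snoc (α := fun _ => ℝ) (WithLp.ofLp x) t)

theorem dist_emb_sq {d : ℕ} (x y : EuclideanSpace ℝ (Fin d)) (t s : ℝ) :
    dist (emb x t) (emb y s) ^ 2 = dist x y ^ 2 + (t - s) ^ 2 := by
  rw [EuclideanSpace.dist_eq, EuclideanSpace.dist_eq, Real.sq_sqrt (by positivity),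
    Real.sq_sqrt (by positivity), Fin.sum_univ_castSucc]
  simp only [emb, Fin.snoc_castSucc, Fin.snoc_last]
  rw [Real.dist_eq, sq_abs]

/-- A weighted configuration on a sphere which shows that a set in `ℝ^d` needs more than `m`
pieces. -/
def Good (d m : ℕ) : Prop :=
  ∃ (ι : Type) (_ : Fintype ι) (p : ι → EuclideanSpace ℝ (Fin d)) (w : ι → ℕ)
    (c : EuclideanSpace ℝ (Fin d)) (r : ℝ),
    (∀ i, dist (p i) c ^ 2 = r) ∧ 0 ≤ r ∧ r ≤ 1 / 6 ∧
    (∀ i j, dist (p i) (p j) ≤ Real.sqrt (1 / 3)) ∧
    (∃ i j, dist (p i) (p j) = Real.sqrt (1 / 3)) ∧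
    (∀ s : Finset ι, (∀ i ∈ s, ∀ j ∈ s, i ≠ j → dist (p i) (p j) < Real.sqrt (1 / 3)) →
      ∑ i ∈ s, w i ≤ 5) ∧
    5 * m < ∑ i, w i

theorem Good.succ {d m : ℕ} (h : Good d m) : Good (d + 1) (m + 1) := by
  classical
  obtain ⟨ι, hι, p, w, c, r, hc, hr0, hr, hle, hex, hw, hm⟩ := h
  set t : ℝ := (1 / 3 - 2 * r) / (2 * Real.sqrt (1 / 3 - r)) with ht
  set H : ℝ := Real.sqrt (1 / 3 - r) with hH
  have hHpos : 0 < H := Real.sqrt_pos.2 (by linarith)
  have hHsq : H ^ 2 = 1 / 3 - r := Real.sq_sqrt (by linarith)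
  have htH : 2 * H * t = 1 / 3 - 2 * r := by
    rw [ht]; field_simp
  have h3 : (0 : ℝ) ≤ 1 / 3 := by norm_num
  have hlow : ∀ i j, dist (emb (p i) 0) (emb (p j) 0) = dist (p i) (p j) := by
    intro i j
    have := dist_emb_sq (p i) (p j) 0 0
    rw [sub_zero, zero_pow (by norm_num), add_zero] at this
    exact (sq_eq_sq₀ dist_nonneg dist_nonneg).1 this
  have hap : ∀ i, dist (emb (p i) 0) (emb c H) = Real.sqrt (1 / 3) := by
    intro i
    have := dist_emb_sq (p i) c 0 H
    rw [hc i, zero_sub, neg_sq, hHsq] at this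
    rw [← Real.sqrt_sq (dist_nonneg (x := emb (p i) 0) (y := emb c H)), this]
    congr 1; ring
  refine ⟨Option ι, inferInstance, fun o => o.elim (emb c H) (fun i => emb (p i) 0),
    fun o => o.elim 5 w, emb c t, r + t ^ 2, ?_, by positivity, ?_, ?_, ?_, ?_, ?_⟩
  · rintro (_ | i)
    · simp only [Option.elim]
      rw [dist_emb_sq, dist_self]
      nlinarith
    · simp only [Option.elim]
      rw [dist_emb_sq, hc i]; ring
  · have h4 : t ^ 2 * (4 * H ^ 2) = (1 / 3 - 2 * r) ^ 2 := by rw [← htH]; ring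
    rw [hHsq] at h4
    have h5 : (0 : ℝ) < 4 * (1 / 3 - r) := by linarith
    have h6 : t ^ 2 ≤ 1 / 6 - r := by
      have : t ^ 2 * (4 * (1 / 3 - r)) ≤ (1 / 6 - r) * (4 * (1 / 3 - r)) := by
        rw [h4]; nlinarith
      exact le_of_mul_le_mul_right this h5
    linarith
  · rintro (_ | i) (_ | j)
    · simp only [Option.elim]; rw [dist_self]; exact Real.sqrt_nonneg _
    · simp only [Option.elim]; rw [dist_comm, hap j]
    · simp only [Option.elim]; rw [hap i]
    · simp only [Option.elim]; rw [hlow]; exact hle i j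
  · obtain ⟨i, j, hij⟩ := hex
    exact ⟨some i, some j, by simp only [Option.elim]; rw [hlow]; exact hij⟩
  · intro s hs
    by_cases hn : none ∈ s
    · have : s = {none} := by
        rw [Finset.eq_singleton_iff_unique_mem]
        refine ⟨hn, ?_⟩
        rintro (_ | i) hi
        · rfl
        · exfalso
          have := hs (some i) hi none hn (by simp)
          simp only [Option.elim] at this
          rw [hap i] at this
          exact lt_irrefl _ this
      rw [this]; simp
    · have hs2 : s = (Finset.univ.filter fun i : ι => some i ∈ s).map Function.Embedding.some := by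
        ext o
        rcases o with _ | i
        · simp [hn]
        · simp
      rw [hs2, Finset.sum_map]
      apply hw
      intro i hi j hj hij
      have := hs (some i) (Finset.mem_filter.1 hi).2 (some j) (Finset.mem_filter.1 hj).2
        (by simpa using hij)
      simp only [Option.elim] at this
      rwa [hlow] at this
  · rw [Fintype.sum_option]
    simp only [Option.elim]
    omega

/-- A good configuration gives a set that needs more than `m` pieces. -/
theorem Good.exists_set {d m : ℕ} (h : Good d m) :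
    ∃ Y : Set (EuclideanSpace ℝ (Fin d)), Bornology.IsBounded Y ∧ 0 < Metric.diam Y ∧
      ∀ k : ℕ, IsUnionOfSmaller Y k → m + 1 ≤ k := by
  obtain ⟨ι, hι, p, w, c, r, hc, hr0, hr, hle, hex, hw, hm⟩ := h
  refine ⟨Set.range p, (Set.finite_range p).isBounded, ?_, fun k hk => ?_⟩
  · obtain ⟨i, j, hij⟩ := hex
    have h1 : dist (p i) (p j) ≤ Metric.diam (Set.range p) :=
      Metric.dist_le_diam_of_mem (Set.finite_range p).isBounded (Set.mem_range_self i)
        (Set.mem_range_self j)
    have h2 : 0 < Real.sqrt (1 / 3) := Real.sqrt_pos.2 (by norm_num)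
    linarith
  · have := sum_le_of_isUnionOfSmaller p w _ hle (Real.sqrt_nonneg _) hw hk
    omega

end Vale.Agent.P052
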