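import Vale.Agent.P052.Cliques

/-!
The clique checks, run by the kernel.
-/

namespace Vale.Agent.P052

theorem range_0 : chkRange 5 0 = true := by decide +kernel

theorem range_1 : chkRange 5 5 = true := by decide +kernel

theorem range_2 : chkRange 6 10 = true := by decide +kernel

theorem range_3 : chkRange 6 16 = true := by decide +kernel

theorem range_4 : chkRange 7 22 = true := by decide +kernel

theorem range_5 : chkRange 8 29 = true := by decide +kernel

theorem range_6 : chkRange 8 37 = true := by decide +kernel

theorem range_7 : chkRange 9 45 = true := by decide +kernel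

theorem range_8 : chkRange 9 54 = true := by decide +kernel

theorem chk_low (v : ℕ) (h0 : 0 ≤ v) (hv : v < 63) :
    chk 400 5 (upr (2 ^ v % 347)) = true := by
  by_cases h0 : v < 5
  · have := chkRange_spec 5 0 range_0 (v - 0) (by omega)
    rwa [show 0 + (v - 0) = v by omega] at this
  by_cases h1 : v < 10
  · have := chkRange_spec 5 5 range_1 (v - 5) (by omega)
    rwa [show 5 + (v - 5) = v by omega] at this
  by_cases h2 : v < 16
  · have := chkRange_spec 6 10 range_2 (v - 10) (by omega)
    rwa [show 10 + (v - 10) = v by omega] at this
  by_cases h3 : v < 22
  · have := chkRange_spec 6 16 range_3 (v - 16) (by omega)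
    rwa [show 16 + (v - 16) = v by omega] at this
  by_cases h4 : v < 29
  · have := chkRange_spec 7 22 range_4 (v - 22) (by omega)
    rwa [show 22 + (v - 22) = v by omega] at this
  by_cases h5 : v < 37
  · have := chkRange_spec 8 29 range_5 (v - 29) (by omega)
    rwa [show 29 + (v - 29) = v by omega] at this
  by_cases h6 : v < 45
  · have := chkRange_spec 8 37 range_6 (v - 37) (by omega)
    rwa [show 37 + (v - 37) = v by omega] at this
  by_cases h7 : v < 54
  · have := chkRange_spec 9 45 range_7 (v - 45) (by omega)
    rwa [show 45 + (v - 45) = v by omega] at this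
  by_cases h8 : v < 63
  · have := chkRange_spec 9 54 range_8 (v - 54) (by omega)
    rwa [show 54 + (v - 54) = v by omega] at this
  omega

end Vale.Agent.P052
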