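import Vale.Agent.P052.Cliques

/-!
The clique checks, run by the kernel.
-/

namespace Vale.Agent.P052

theorem range_9 : chkRange 8 63 = true := by decide +kernel

theorem range_10 : chkRange 10 71 = true := by decide +kernel

theorem range_11 : chkRange 11 81 = true := by decide +kernel

theorem range_12 : chkRange 13 92 = true := by decide +kernel

theorem range_13 : chkRange 12 105 = true := by decide +kernel

theorem range_14 : chkRange 16 117 = true := by decide +kernel

theorem range_15 : chkRange 19 133 = true := by decide +kernel

theorem range_16 : chkRange 34 152 = true := by decide +kernel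

theorem range_17 : chkRange 140 186 = true := by decide +kernel

theorem chk_high (v : ℕ) (h0 : 63 ≤ v) (hv : v < 326) :
    chk 400 5 (upr (2 ^ v % 347)) = true := by
  by_cases h9 : v < 71
  · have := chkRange_spec 8 63 range_9 (v - 63) (by omega)
    rwa [show 63 + (v - 63) = v by omega] at this
  by_cases h10 : v < 81
  · have := chkRange_spec 10 71 range_10 (v - 71) (by omega)
    rwa [show 71 + (v - 71) = v by omega] at this
  by_cases h11 : v < 92
  · have := chkRange_spec 11 81 range_11 (v - 81) (by omega)
    rwa [show 81 + (v - 81) = v by omega] at this
  by_cases h12 : v < 105
  · have := chkRange_spec 13 92 range_12 (v - 92) (by omega)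
    rwa [show 92 + (v - 92) = v by omega] at this
  by_cases h13 : v < 117
  · have := chkRange_spec 12 105 range_13 (v - 105) (by omega)
    rwa [show 105 + (v - 105) = v by omega] at this
  by_cases h14 : v < 133
  · have := chkRange_spec 16 117 range_14 (v - 117) (by omega)
    rwa [show 117 + (v - 117) = v by omega] at this
  by_cases h15 : v < 152
  · have := chkRange_spec 19 133 range_15 (v - 133) (by omega)
    rwa [show 133 + (v - 133) = v by omega] at this
  by_cases h16 : v < 186
  · have := chkRange_spec 34 152 range_16 (v - 152) (by omega)
    rwa [show 152 + (v - 152) = v by omega] at this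
  by_cases h17 : v < 326
  · have := chkRange_spec 140 186 range_17 (v - 186) (by omega)
    rwa [show 186 + (v - 186) = v by omega] at this
  omega

end Vale.Agent.P052
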