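import Mathlib

/-!
Small functions that Lean's kernel evaluates quickly, with their specifications.
-/

namespace Vale.Agent.P052

/-- `f n`, with `n` evaluated first. -/
def force {α : Type} (n : ℕ) (f : ℕ → α) : α :=
  Nat.rec (motive := fun _ => α) (f 0) (fun k _ => f (Nat.succ k)) n

theorem force_eq {α : Type} (n : ℕ) (f : ℕ → α) : force n f = f n := by
  cases n <;> rfl

/-- Bit `j` of `m`, in a form that the kernel evaluates quickly. -/
def bit (m j : ℕ) : Bool := Nat.beq (Nat.mod (Nat.shiftRight m j) 2) 1

theorem bit_eq (m j : ℕ) : bit m j = m.testBit j := by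
  have h : bit m j = decide (m.shiftRight j % 2 = 1) := by
    rw [Bool.eq_iff_iff]
    unfold bit
    rw [Nat.beq_eq, decide_eq_true_iff]
    rfl
  rw [h, Nat.testBit_eq_decide_div_mod_eq]
  have : m.shiftRight j = m / 2 ^ j := Nat.shiftRight_eq_div_pow m j
  rw [this]

/-- `spread n m` puts bit `j` of `m` (for `j < n`) at place `9 * j`. -/
def spread (n : ℕ) : ℕ → ℕ :=
  Nat.rec (motive := fun _ => ℕ → ℕ) (fun _ => 0)
    (fun _ ih m => Nat.add (Nat.mod m 2) (Nat.mul 512 (force (Nat.div m 2) ih))) n

theorem spread_succ (n m : ℕ) : spread (n + 1) m = m % 2 + 512 * spread n (m / 2) := by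
  show Nat.add (Nat.mod m 2) (Nat.mul 512 (force (Nat.div m 2) (spread n))) = _
  rw [force_eq]; rfl

/-- The number of ones among the first `n` bits. -/
def count (n m : ℕ) : ℕ := ∑ k ∈ Finset.range n, (m.testBit k).toNat

theorem count_le (n m : ℕ) : count n m ≤ n := by
  unfold count
  calc ∑ k ∈ Finset.range n, (m.testBit k).toNat ≤ ∑ _k ∈ Finset.range n, 1 :=
        Finset.sum_le_sum fun k _ => Bool.toNat_le _
    _ = n := by simp

theorem count_succ (n m : ℕ) : count (n + 1) m = m % 2 + count n (m / 2) := by
  unfold count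
  rw [Finset.sum_range_succ', add_comm]
  congr 1
  · simp [Nat.testBit_zero]
    rcases Nat.mod_two_eq_zero_or_one m with h | h <;> simp [h]
  · refine Finset.sum_congr rfl fun k _ => ?_
    rw [Nat.testBit_succ]

theorem spread_mod (n m : ℕ) : spread n m ≡ count n m [MOD 511] := by
  induction n generalizing m with
  | zero => rfl
  | succ n ih =>
    rw [spread_succ, count_succ]
    refine Nat.ModEq.add_left _ ?_
    calc 512 * spread n (m / 2) ≡ 1 * spread n (m / 2) [MOD 511] :=
          Nat.ModEq.mul_right _ (by decide)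
      _ = spread n (m / 2) := one_mul _
      _ ≡ count n (m / 2) [MOD 511] := ih _

theorem land_digit (x y X Y : ℕ) (hx : x < 2 ^ 9) (hy : y < 2 ^ 9) :
    (x + 2 ^ 9 * X) &&& (y + 2 ^ 9 * Y) = (x &&& y) + 2 ^ 9 * (X &&& Y) := by
  have hxy : x &&& y < 2 ^ 9 := Nat.and_lt_two_pow x hy
  apply Nat.eq_of_testBit_eq
  intro i
  rw [Nat.testBit_and, add_comm x, add_comm y, add_comm (x &&& y),
    Nat.testBit_two_pow_mul_add X hx, Nat.testBit_two_pow_mul_add Y hy,
    Nat.testBit_two_pow_mul_add (X &&& Y) hxy]
  split_ifs <;> simp [Nat.testBit_and]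

theorem spread_land (n a b : ℕ) :
    spread n a &&& spread n b = spread n (a &&& b) := by
  induction n generalizing a b with
  | zero =>
    show (0 : ℕ) &&& 0 = 0
    simp
  | succ n ih =>
    rw [spread_succ, spread_succ, spread_succ]
    have e : (512 : ℕ) = 2 ^ 9 := by norm_num
    rw [e, land_digit _ _ _ _ (by omega) (by omega), ih]
    have h1 : a % 2 &&& b % 2 = (a &&& b) % 2 := by
      have := Nat.and_mod_two_pow (a := a) (b := b) (n := 1)
      simpa using this.symm
    have h2 : a / 2 &&& b / 2 = (a &&& b) / 2 := by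
      have := Nat.and_div_two_pow (a := a) (b := b) (n := 1)
      simpa using this.symm
    rw [h1, h2]

/-- The number of common ones of `a` and `b`, from their spread forms. -/
theorem land_mod (n a b : ℕ) (hn : n < 511) :
    Nat.mod (Nat.land (spread n a) (spread n b)) 511 = count n (a &&& b) := by
  show (spread n a &&& spread n b) % 511 = _
  rw [spread_land]
  have := spread_mod n (a &&& b)
  rw [Nat.ModEq] at this
  rw [this, Nat.mod_eq_of_lt (lt_of_le_of_lt (count_le _ _) hn)]

/-- `f j t` holds for the entries `t` of `l`, numbered from `j`. -/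
def loop (f : ℕ → ℕ → Bool) (l : List ℕ) : ℕ → Bool :=
  List.rec (motive := fun _ => ℕ → Bool) (fun _ => true)
    (fun t _ ih j => and (f j t) (force (Nat.add j 1) ih)) l

theorem loop_spec (f : ℕ → ℕ → Bool) (l : List ℕ) (j : ℕ) (h : loop f l j = true)
    (k : ℕ) (hk : k < l.length) : f (j + k) l[k] = true := by
  induction l generalizing j k with
  | nil => simp at hk
  | cons t l ih =>
    have h' : (and (f j t) (force (Nat.add j 1) (loop f l))) = true := h
    rw [force_eq, Bool.and_eq_true] at h'
    cases k with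
    | zero => simpa using h'.1
    | succ k =>
      have := ih (j + 1) h'.2 k (by simpa using hk)
      rw [show j + (k + 1) = j + 1 + k by ring]
      simpa using this

end Vale.Agent.P052
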