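import Vale.Agent.P052.Big
import Vale.Agent.P052.Eval

/-!
A branching search for cliques, with its correctness proof.
-/

namespace Vale.Agent.P052

/-- The entry of `big` at place `r`: 64 unused low bits, then a mask of vertices. -/
def upr (r : ℕ) : ℕ := Nat.mod (Nat.shiftRight big (Nat.mul 390 r)) (Nat.pow 2 390)

/-- The mask of the larger neighbours of `v`. -/
def up (v : ℕ) : ℕ := upr (2 ^ v % 347) >>> 64

/-- `chk fuel k mask`: no clique of size `k` inside `mask` (whose 64 low bits are ignored). -/
def chk (fuel : ℕ) : ℕ → ℕ → Bool :=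
  Nat.rec (motive := fun _ => ℕ → ℕ → Bool) (fun _ _ => false)
    (fun _ ih k mask => cond (Nat.beq (Nat.shiftRight mask 64) 0) (Bool.not (Nat.beq k 0))
      (cond (Nat.ble k 1) false
        (force (Nat.gcd (Nat.shiftRight mask 64) (Nat.pow 2 326)) fun l =>
          force (Nat.sub mask (Nat.shiftLeft l 64)) fun rest =>
          and (force (Nat.land rest (upr (Nat.mod l 347))) fun m => ih (Nat.sub k 1) m)
            (ih k rest)))) fuel

theorem chk_succ (fuel k mask : ℕ) :
    chk (fuel + 1) k mask = cond (Nat.beq (Nat.shiftRight mask 64) 0) (Bool.not (Nat.beq k 0))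
      (cond (Nat.ble k 1) false
          (and (chk fuel (Nat.sub k 1) (Nat.land
            (Nat.sub mask (Nat.shiftLeft (Nat.gcd (Nat.shiftRight mask 64) (Nat.pow 2 326)) 64))
              (upr (Nat.mod (Nat.gcd (Nat.shiftRight mask 64) (Nat.pow 2 326)) 347))))
            (chk fuel k
            (Nat.sub mask (Nat.shiftLeft (Nat.gcd (Nat.shiftRight mask 64) (Nat.pow 2 326)) 64))))) := by
  show cond _ _ (cond _ _ (force _ _)) = _
  rw [force_eq, force_eq, force_eq]
  rfl

theorem chk_sound (fuel k mask : ℕ) (h : chk fuel k mask = true) (hm : mask < 2 ^ 390)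
    (s : Finset ℕ) (h1 : ∀ i ∈ s, (mask >>> 64).testBit i = true)
    (h2 : ∀ i ∈ s, ∀ j ∈ s, i < j → (up i).testBit j = true) : s.card < k := by
  induction fuel generalizing k mask s with
  | zero => exact absurd h (by intro h'; exact Bool.false_ne_true h')
  | succ fuel ih =>
    rw [chk_succ] at h
    by_cases hM : mask >>> 64 = 0
    · have hs : s = ∅ := by
        rw [Finset.eq_empty_iff_forall_notMem]
        intro i hi
        have := h1 i hi
        rw [hM] at this
        simp at this
      have h0 : Nat.beq (Nat.shiftRight mask 64) 0 = true := by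
        rw [Nat.beq_eq]; exact hM
      rw [h0, cond_true] at h
      have hk : k ≠ 0 := by
        rintro rfl
        exact absurd h (by decide)
      rw [hs]; simpa using Nat.pos_of_ne_zero hk
    · have h0 : Nat.beq (Nat.shiftRight mask 64) 0 = false := by
        rw [Bool.eq_false_iff]
        intro hc
        exact hM (Nat.beq_eq ▸ hc)
      rw [h0, cond_false] at h
      rcases Nat.lt_or_ge 1 k with hk | hk
      swap
      · have : Nat.ble k 1 = true := by rw [Nat.ble_eq]; exact hk
        rw [this, cond_true] at h
        exact absurd h (by decide)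
      have hk' : Nat.ble k 1 = false := by
        rw [Bool.eq_false_iff]
        intro hc
        rw [Nat.ble_eq] at hc
        omega
      rw [hk', cond_false, Bool.and_eq_true] at h
      set M := mask >>> 64 with hMdef
      have hMlt : M < 2 ^ 326 := by
        rw [hMdef, Nat.shiftRight_eq_div_pow, Nat.div_lt_iff_lt_mul (Nat.two_pow_pos 64), ← pow_add]
        exact hm
      obtain ⟨v, o, ho, hvo⟩ := Nat.exists_eq_two_pow_mul_odd hM
      have hv : v < 326 := by
        by_contra hc
        have : 2 ^ 326 ≤ 2 ^ v := Nat.pow_le_pow_right (by norm_num) (by omega)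
        have h3 : 2 ^ v ≤ M := by
          rw [hvo]; exact Nat.le_mul_of_pos_right _ ho.pos
        omega
      have hgcd : Nat.gcd (Nat.shiftRight mask 64) (Nat.pow 2 326) = 2 ^ v := by
        show Nat.gcd M (2 ^ 326) = 2 ^ v
        rw [hvo, show (2 : ℕ) ^ 326 = 2 ^ v * 2 ^ (326 - v) by rw [← pow_add]; congr 1; omega,
          Nat.gcd_mul_left]
        have : Nat.gcd o (2 ^ (326 - v)) = 1 := by
          apply Nat.Coprime.pow_right
          exact (Nat.coprime_two_right).2 ho
        rw [this, mul_one]
      rw [hgcd] at h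
      have hrest : Nat.sub mask (Nat.shiftLeft (2 ^ v) 64) = mask - 2 ^ v * 2 ^ 64 := by
        show mask - (2 ^ v) <<< 64 = _
        rw [Nat.shiftLeft_eq]
      rw [hrest] at h
      set rest := mask - 2 ^ v * 2 ^ 64 with hrestdef
      have hrlt : rest < 2 ^ 390 := lt_of_le_of_lt (Nat.sub_le _ _) hm
      have hrM : rest >>> 64 = M - 2 ^ v := by
        rw [hrestdef, Nat.shiftRight_eq_div_pow, hMdef, Nat.shiftRight_eq_div_pow,
          mul_comm (2 ^ v) (2 ^ 64), Nat.sub_mul_div]
      have hbit : ∀ i, M.testBit i = true → v ≤ i ∧ (i ≠ v → (M - 2 ^ v).testBit i = true) := by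
        intro i hi
        rw [hvo, Nat.testBit_two_pow_mul, Bool.and_eq_true, decide_eq_true_iff] at hi
        refine ⟨hi.1, fun hne => ?_⟩
        have e : M - 2 ^ v = 2 ^ v * (o - 1) := by
          rw [hvo, Nat.mul_sub, mul_one]
        rw [e, Nat.testBit_two_pow_mul, Bool.and_eq_true, decide_eq_true_iff]
        refine ⟨hi.1, ?_⟩
        obtain ⟨t, ht⟩ : ∃ t, i - v = t + 1 := ⟨i - v - 1, by have := hi.1; omega⟩
        have h4 := hi.2
        rw [ht, Nat.testBit_succ] at h4 ⊢
        obtain ⟨q, hq⟩ := ho
        have : (o - 1) / 2 = o / 2 := by omega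
        rw [this]; exact h4
      by_cases hvs : v ∈ s
      · have key := ih (Nat.sub k 1) (Nat.land rest (upr (Nat.mod (2 ^ v) 347))) h.1
          (lt_of_le_of_lt Nat.and_le_left hrlt) (s.erase v) (by
            intro i hi
            have hi' := Finset.mem_erase.1 hi
            have hb := hbit i (h1 i hi'.2)
            show ((rest &&& upr (2 ^ v % 347)) >>> 64).testBit i = true
            rw [Nat.shiftRight_and_distrib, Nat.testBit_and, hrM, hb.2 hi'.1, Bool.true_and]
            exact h2 v hvs i hi'.2 (lt_of_le_of_ne hb.1 (Ne.symm hi'.1)))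
          (by
            intro i hi j hj hij
            exact h2 i (Finset.mem_of_mem_erase hi) j (Finset.mem_of_mem_erase hj) hij)
        rw [Finset.card_erase_of_mem hvs] at key
        have : Nat.sub k 1 = k - 1 := rfl
        omega
      · refine ih k rest h.2 hrlt s (fun i hi => ?_) h2
        rw [hrM]
        exact (hbit i (h1 i hi)).2 (fun hc => hvs (hc ▸ hi))

/-- The checks for the vertices `v, v + 1, …, v + n - 1`. -/
def chkRange (n : ℕ) : ℕ → Bool :=
  Nat.rec (motive := fun _ => ℕ → Bool) (fun _ => true)
    (fun _ ih v => and (chk 400 5 (upr (Nat.mod (Nat.pow 2 v) 347))) (force (Nat.add v 1) ih)) n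

theorem chkRange_spec (n v : ℕ) (h : chkRange n v = true) (k : ℕ) (hk : k < n) :
    chk 400 5 (upr (2 ^ (v + k) % 347)) = true := by
  induction n generalizing v k with
  | zero => omega
  | succ n ih =>
    have h' : (and (chk 400 5 (upr (Nat.mod (Nat.pow 2 v) 347)))
      (force (Nat.add v 1) (chkRange n))) = true := h
    rw [force_eq, Bool.and_eq_true] at h'
    cases k with
    | zero => exact h'.1
    | succ k =>
      have := ih (v + 1) h'.2 k (by omega)
      rw [show v + (k + 1) = v + 1 + k by ring]
      exact this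

theorem upr_lt (r : ℕ) : upr r < 2 ^ 390 := Nat.mod_lt _ (Nat.two_pow_pos 390)

/-- If all the checks succeed, there is no clique with six elements. -/
theorem card_le_five (hchk : ∀ v < 326, chk 400 5 (upr (2 ^ v % 347)) = true)
    (s : Finset ℕ) (hs : ∀ i ∈ s, i < 326)
    (h2 : ∀ i ∈ s, ∀ j ∈ s, i < j → (up i).testBit j = true) : s.card ≤ 5 := by
  rcases s.eq_empty_or_nonempty with rfl | hne
  · simp
  · set v := s.min' hne with hv
    have hvs : v ∈ s := Finset.min'_mem s hne
    have key := chk_sound 400 5 _ (hchk v (hs v hvs)) (upr_lt _) (s.erase v)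
      (by
        intro i hi
        have hi' := Finset.mem_erase.1 hi
        exact h2 v hvs i hi'.2 (lt_of_le_of_ne (Finset.min'_le s i hi'.2) (Ne.symm hi'.1)))
      (by
        intro i hi j hj hij
        exact h2 i (Finset.mem_of_mem_erase hi) j (Finset.mem_of_mem_erase hj) hij)
    rw [Finset.card_erase_of_mem hvs] at key
    omega

end Vale.Agent.P052
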