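import Vale.Agent.P052.Geometry

/-!
The configuration of 321 points in `ℝ^63`.
-/

namespace Vale.Agent.P052

open scoped InnerProductSpace

/-- The scale of the extra point. -/
noncomputable def sc : ℝ := (Real.sqrt 222 - 1) / 13

theorem sc_pos : 0 < sc := by
  unfold sc
  have : (1 : ℝ) < Real.sqrt 222 := by
    rw [Real.lt_sqrt (by norm_num)]; norm_num
  linarith [div_pos (sub_pos.2 this) (by norm_num : (0 : ℝ) < 13)]

theorem sc_eq : 13 * sc ^ 2 + 2 * sc = 17 := by
  unfold sc
  have : Real.sqrt 222 ^ 2 = 222 := Real.sq_sqrt (by norm_num)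
  field_simp
  ring_nf
  rw [this]
  norm_num

theorem row_zero_one : ¬ (row 0).testBit ((Fin.castLE (by norm_num) (1 : Fin 321) : Fin 416) : ℕ)
    = true := by
  decide +kernel

/-- There are 321 points in `ℝ^63` with all distances at most `√(1/3)`, with equality for some
pair, and such that at most five of them can be pairwise at smaller distance. -/
theorem exists_config : ∃ p : Fin 321 → EuclideanSpace ℝ (Fin 63),
    (∀ i j, dist (p i) (p j) ≤ Real.sqrt (1 / 3)) ∧
    (∃ i j, dist (p i) (p j) = Real.sqrt (1 / 3)) ∧
    (∀ s : Finset (Fin 321), (∀ i ∈ s, ∀ j ∈ s, i ≠ j → dist (p i) (p j) < Real.sqrt (1 / 3)) →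
      s.card ≤ 5) := by
  obtain ⟨f, hf⟩ := exists_gram_of_isIdempotent F F_transpose F_mul_F F_trace
  let e : Fin 321 → Fin 416 := Fin.castLE (by norm_num)
  let w : Fin 321 → ℝ := fun i => if (i : ℕ) < 320 then 1 else sc
  let p : Fin 321 → EuclideanSpace ℝ (Fin 63) := fun i => w i • f (e i)
  have hw : ∀ i, 0 < w i := by
    intro i
    simp only [w]
    split_ifs
    · norm_num
    · exact sc_pos
  -- the squared distances
  have hsq : ∀ i j : Fin 321, i < j → dist (p i) (p j) ^ 2 = 1 / 3 - w j / 12 * A (e i) (e j) := by
    intro i j hij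
    have hi : (i : ℕ) < 320 := by
      have h1 : (i : ℕ) < j := hij
      have h2 := j.2
      omega
    have hwi : w i = 1 := by simp only [w]; rw [if_pos hi]
    have hne : e i ≠ e j := by
      intro hc
      exact absurd (Fin.castLE_injective _ hc) (ne_of_lt hij)
    have h1 : ‖p i‖ ^ 2 = 5 / 32 := by
      rw [← real_inner_self_eq_norm_sq]
      simp only [p]
      rw [hwi, one_smul, hf, F_low _ _ hi, A_self, if_pos rfl]
      norm_num
    have h2 : ⟪p i, p j⟫_ℝ = w j * (A (e i) (e j) / 24 - 1 / 96) := by
      simp only [p]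
      rw [hwi, one_smul, real_inner_smul_right, hf, F_low _ _ hi, if_neg hne]
      ring
    have h3 : ‖p j‖ ^ 2 = 17 / 96 - 2 * w j / 96 := by
      rw [← real_inner_self_eq_norm_sq]
      simp only [p]
      rw [real_inner_smul_right, real_inner_smul_left, hf]
      by_cases hj : (j : ℕ) < 320
      · have hwj : w j = 1 := by simp only [w]; rw [if_pos hj]
        rw [hwj, F_low _ _ hj, A_self, if_pos rfl]
        norm_num
      · have hwj : w j = sc := by simp only [w]; rw [if_neg hj]
        have hej : e j = 320 := by
          apply Fin.ext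
          show (j : ℕ) = 320
          have := j.2
          omega
        rw [hwj, hej, F_320]
        have := sc_eq
        linarith
    rw [dist_eq_norm, norm_sub_sq_real, h1, h2, h3]
    ring
  have hA01 : ∀ i j, A i j = 0 ∨ A i j = 1 := by
    intro i j
    unfold A ind
    by_cases hb : (row i).testBit j = true <;> simp [hb]
  have hD : (0 : ℝ) ≤ 1 / 3 := by norm_num
  have hle' : ∀ i j : Fin 321, i < j → dist (p i) (p j) ≤ Real.sqrt (1 / 3) := by
    intro i j hij
    apply Real.le_sqrt_of_sq_le
    rw [hsq i j hij]
    have := hw j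
    rcases hA01 (e i) (e j) with h | h <;> rw [h] <;> linarith
  refine ⟨p, ?_, ?_, ?_⟩
  · intro i j
    rcases lt_trichotomy i j with h | h | h
    · exact hle' i j h
    · rw [h, dist_self]; exact Real.sqrt_nonneg _
    · rw [dist_comm]; exact hle' j i h
  · refine ⟨0, 1, ?_⟩
    have h01 : (0 : Fin 321) < 1 := by decide
    have h2 := hsq 0 1 h01
    have hA0 : A (e 0) (e 1) = 0 := by
      show ind (row 0) (e 1) = 0
      unfold ind
      exact if_neg row_zero_one
    rw [hA0, mul_zero, sub_zero] at h2
    rw [← h2, Real.sqrt_sq dist_nonneg]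
  · intro s hs
    -- the indices of `s` form a clique
    have key := clique_card_le (s.map Fin.valEmbedding)
      (by
        intro i hi
        obtain ⟨a, _, rfl⟩ := Finset.mem_map.1 hi
        exact lt_trans a.2 (by norm_num))
      (by
        intro i hi j hj hij
        obtain ⟨a, ha, rfl⟩ := Finset.mem_map.1 hi
        obtain ⟨b, hb, rfl⟩ := Finset.mem_map.1 hj
        have hab : a < b := hij
        have h1 := hs a ha b hb (ne_of_lt hab)
        by_contra hc
        have hA0 : A (e a) (e b) = 0 := by
          show ind (row a) (e b) = 0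
          unfold ind
          exact if_neg hc
        have h2 := hsq a b hab
        rw [hA0, mul_zero, sub_zero] at h2
        have h3 : dist (p a) (p b) = Real.sqrt (1 / 3) := by
          rw [← h2, Real.sqrt_sq dist_nonneg]
        exact absurd h3 (ne_of_lt h1))
    rwa [Finset.card_map] at key

end Vale.Agent.P052
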