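import Vale.Agent.P052.Geometry
import Vale.Agent.P052.Apex

/-!
A configuration of 326 points in `ℝ^64`, and configurations in all larger dimensions.
-/

namespace Vale.Agent.P052

open Matrix
open scoped InnerProductSpace

/-- The vector to be projected away. -/
noncomputable def u3 : Fin 416 → ℝ := blk 1 - blk 2

theorem A_mulVec_u3 : A *ᵥ u3 = (20 : ℝ) • u3 := by
  ext i
  unfold u3
  rw [mulVec_sub, Pi.sub_apply, A_mulVec_blk 1 (by norm_num), A_mulVec_blk 2 (by norm_num)]
  simp only [Pi.smul_apply, Pi.sub_apply, smul_eq_mul]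
  ring

theorem u3_dot_u3 : u3 ⬝ᵥ u3 = 64 := by
  unfold u3
  simp only [sub_dotProduct, dotProduct_sub]
  rw [blk_dotProduct_blk 1 1 (by norm_num) (by norm_num),
    blk_dotProduct_blk 1 2 (by norm_num) (by norm_num),
    blk_dotProduct_blk 2 1 (by norm_num) (by norm_num),
    blk_dotProduct_blk 2 2 (by norm_num) (by norm_num)]
  norm_num

theorem one_dot_u3 : one ⬝ᵥ u3 = 0 := by
  unfold u3
  rw [dotProduct_sub, one_dotProduct_blk 1 (by norm_num), one_dotProduct_blk 2 (by norm_num)]
  norm_num

/-- The projection matrix of rank 64. -/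
noncomputable def G : Matrix (Fin 416) (Fin 416) ℝ :=
  (1 / 24 : ℝ) • A + (1 / 6 : ℝ) • 1 - (1 / 96 : ℝ) • vecMulVec one one
    - (1 / 64 : ℝ) • vecMulVec u3 u3

theorem G_mul_G : G * G = G := by
  have h := idem_of_relations A (vecMulVec one one) (vecMulVec u3 u3) 0
    A_mul_A
    (by rw [mul_vecMulVec, A_mulVec_one, smul_vecMulVec])
    (by rw [vecMulVec_mul, vecMul_A, A_mulVec_one, vecMulVec_smul])
    (by rw [vecMulVec_mul_vecMulVec, one_dot_one, vecMulVec_smul])
    (by rw [mul_vecMulVec, A_mulVec_u3, smul_vecMulVec])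
    (by rw [vecMulVec_mul, vecMul_A, A_mulVec_u3, vecMulVec_smul])
    (by rw [mul_zero, smul_zero])
    (by rw [zero_mul, smul_zero])
    (by rw [vecMulVec_mul_vecMulVec, one_dot_u3, zero_smul, vecMulVec_zero])
    (by rw [vecMulVec_mul_vecMulVec, dotProduct_comm, one_dot_u3, zero_smul, vecMulVec_zero])
    (by rw [mul_zero])
    (by rw [zero_mul])
    (by rw [vecMulVec_mul_vecMulVec, u3_dot_u3, vecMulVec_smul])
    (by rw [mul_zero, smul_zero])
    (by rw [mul_zero])
    (by rw [zero_mul])
  simp only [smul_zero, sub_zero] at h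
  exact h

theorem G_transpose : G.transpose = G := by
  unfold G
  simp only [transpose_sub, transpose_add, transpose_smul, A_transpose, transpose_one,
    transpose_vecMulVec]

theorem G_trace : G.trace = (64 : ℕ) := by
  have hA : A.trace = 0 := by
    unfold Matrix.trace
    refine Finset.sum_eq_zero fun i _ => ?_
    rw [diag_apply, A_self]
  unfold G
  simp only [trace_sub, trace_add, trace_smul, hA, trace_one, trace_vecMulVec, one_dot_one,
    u3_dot_u3, smul_eq_mul, Fintype.card_fin]
  norm_num

theorem blk_mid_check : ∀ i < 352, ∀ t < 3, 1 ≤ t → (blockMask t).testBit i = false := by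
  decide +kernel

theorem G_low (i j : Fin 416) (hi : (i : ℕ) < 352) :
    G i j = A i j / 24 + (if i = j then 1 / 6 else 0) - 1 / 96 := by
  have hb : ∀ t < 3, 1 ≤ t → blk t i = 0 := by
    intro t ht ht1
    unfold blk ind
    rw [blk_mid_check i hi t ht ht1]
    simp
  have h1 : u3 i = 0 := by
    unfold u3
    rw [Pi.sub_apply, hb 1 (by norm_num) (by norm_num), hb 2 (by norm_num) (by norm_num),
      sub_zero]
  have h2 : G i j = 1 / 24 * A i j + 1 / 6 * (1 : Matrix (Fin 416) (Fin 416) ℝ) i j
    - 1 / 96 * (one i * one j) - 1 / 64 * (u3 i * u3 j) := rfl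
  rw [h2, h1, Matrix.one_apply]
  unfold one
  split_ifs <;> ring

theorem row_zero_one' : (row 0).testBit 1 = false := by
  decide +kernel

theorem good_64 : Good 64 65 := by
  obtain ⟨f, hf⟩ := exists_gram_of_isIdempotent G G_transpose G_mul_G G_trace
  let e : Fin 326 → Fin 416 := Fin.castLE (by norm_num)
  have hlt : ∀ i : Fin 326, ((e i : Fin 416) : ℕ) < 352 := by
    intro i
    have h1 : ((e i : Fin 416) : ℕ) = i := rfl
    have h2 := i.2
    omega
  have hnorm : ∀ i, ‖f (e i)‖ ^ 2 = 5 / 32 := by
    intro i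
    rw [← real_inner_self_eq_norm_sq, hf, G_low _ _ (hlt i), A_self, if_pos rfl]
    norm_num
  have hsq : ∀ i j : Fin 326, i ≠ j →
      dist (f (e i)) (f (e j)) ^ 2 = 1 / 3 - A (e i) (e j) / 12 := by
    intro i j hij
    have hne : e i ≠ e j := fun hc => hij (Fin.castLE_injective _ hc)
    rw [dist_eq_norm, norm_sub_sq_real, hnorm, hnorm, hf, G_low _ _ (hlt i), if_neg hne]
    ring
  have hA01 : ∀ i j, A i j = 0 ∨ A i j = 1 := by
    intro i j
    unfold A ind
    by_cases hb : (row i).testBit j = true <;> simp [hb]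
  refine ⟨Fin 326, inferInstance, fun i => f (e i), fun _ => 1, 0, 5 / 32, ?_, by norm_num,
    by norm_num, ?_, ?_, ?_, ?_⟩
  · intro i
    rw [dist_zero_right]; exact hnorm i
  · intro i j
    by_cases hij : i = j
    · rw [hij, dist_self]; exact Real.sqrt_nonneg _
    · apply Real.le_sqrt_of_sq_le
      rw [hsq i j hij]
      rcases hA01 (e i) (e j) with h | h <;> rw [h] <;> norm_num
  · refine ⟨0, 1, ?_⟩
    have h2 := hsq 0 1 (by decide)
    have hA0 : A (e 0) (e 1) = 0 := by
      show ind (row 0) (e 1) = 0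
      unfold ind
      have : (row 0).testBit ((e 1 : Fin 416) : ℕ) = false := row_zero_one'
      rw [this]
      simp
    rw [hA0, zero_div, sub_zero] at h2
    rw [← h2, Real.sqrt_sq dist_nonneg]
  · intro s hs
    have key := clique_card_le (s.map Fin.valEmbedding)
      (by
        intro i hi
        obtain ⟨a, _, rfl⟩ := Finset.mem_map.1 hi
        exact a.2)
      (by
        intro i hi j hj hij
        obtain ⟨a, ha, rfl⟩ := Finset.mem_map.1 hi
        obtain ⟨b, hb, rfl⟩ := Finset.mem_map.1 hj
        have hab : a < b := hij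
        have h1 := hs a ha b hb (ne_of_lt hab)
        by_contra hc
        have hA0 : A (e a) (e b) = 0 := by
          show ind (row a) (e b) = 0
          unfold ind
          exact if_neg hc
        have h2 := hsq a b (ne_of_lt hab)
        rw [hA0, zero_div, sub_zero] at h2
        have h3 : dist (f (e a)) (f (e b)) = Real.sqrt (1 / 3) := by
          rw [← h2, Real.sqrt_sq dist_nonneg]
        exact absurd h3 (ne_of_lt h1))
    rw [Finset.card_map] at key
    simpa using key
  · simp

theorem good_high (d : ℕ) (hd : 64 ≤ d) : Good d (d + 1) := by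
  induction d, hd using Nat.le_induction with
  | base => exact good_64
  | succ d _ ih => exact ih.succ

end Vale.Agent.P052
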