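import Vale.Agent.P052.Defs

/-!
General facts about Borsuk's partition problem and finite configurations.
-/

namespace Vale.Agent.P052

/-- A finite configuration: if all distances are at most `D`, the value `D` is attained, and every
set of indices whose points are pairwise at distance less than `D` has at most `w` elements, then
every splitting of the configuration into `k` sets of smaller diameter has `n ≤ w * k`. -/
theorem card_le_of_isUnionOfSmaller {E : Type*} [MetricSpace E] {n w k : ℕ} (p : Fin n → E) (D : ℝ)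
    (hle : ∀ i j, dist (p i) (p j) ≤ D)
    (hw : ∀ s : Finset (Fin n), (∀ i ∈ s, ∀ j ∈ s, i ≠ j → dist (p i) (p j) < D) → s.card ≤ w)
    (hY : IsUnionOfSmaller (Set.range p) k) : n ≤ w * k := by
  classical
  obtain ⟨S, hS, hd⟩ := hY
  rcases Nat.eq_zero_or_pos n with hn | hn
  · subst hn; exact Nat.zero_le _
  have hD0 : 0 ≤ D := le_trans dist_nonneg (hle ⟨0, hn⟩ ⟨0, hn⟩)
  have hdiam : Metric.diam (Set.range p) ≤ D := by
    apply Metric.diam_le_of_forall_dist_le hD0
    rintro _ ⟨i, rfl⟩ _ ⟨j, rfl⟩
    exact hle i j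
  have hfin : (Set.range p).Finite := Set.finite_range p
  have hcard : ∀ a : Fin k, (Finset.univ.filter fun i => p i ∈ S a).card ≤ w := by
    intro a
    apply hw
    intro i hi j hj _
    have hi' : p i ∈ S a := (Finset.mem_filter.1 hi).2
    have hj' : p j ∈ S a := (Finset.mem_filter.1 hj).2
    have hsub : S a ⊆ Set.range p := by
      rw [← hS]; exact Set.subset_iUnion S a
    have hb : Bornology.IsBounded (S a) := (hfin.subset hsub).isBounded
    calc dist (p i) (p j) ≤ Metric.diam (S a) := Metric.dist_le_diam_of_mem hb hi' hj'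
      _ < Metric.diam (Set.range p) := hd a
      _ ≤ D := hdiam
  have hcover : (Finset.univ : Finset (Fin n)) ⊆
      Finset.univ.biUnion fun a : Fin k => Finset.univ.filter fun i => p i ∈ S a := by
    intro i _
    have : p i ∈ ⋃ a, S a := by rw [hS]; exact Set.mem_range_self i
    obtain ⟨a, ha⟩ := Set.mem_iUnion.1 this
    exact Finset.mem_biUnion.2 ⟨a, Finset.mem_univ _, Finset.mem_filter.2 ⟨Finset.mem_univ _, ha⟩⟩
  calc n = (Finset.univ : Finset (Fin n)).card := by simp
    _ ≤ _ := Finset.card_le_card hcover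
    _ ≤ ∑ a : Fin k, (Finset.univ.filter fun i => p i ∈ S a).card := Finset.card_biUnion_le
    _ ≤ ∑ _a : Fin k, w := Finset.sum_le_sum fun a _ => hcard a
    _ = w * k := by simp [mul_comm]

/-- The diameter of a finite configuration. -/
theorem diam_range_eq {E : Type*} [MetricSpace E] {n : ℕ} (p : Fin n → E) (D : ℝ)
    (hle : ∀ i j, dist (p i) (p j) ≤ D) (hex : ∃ i j, dist (p i) (p j) = D) :
    Metric.diam (Set.range p) = D := by
  obtain ⟨i, j, hij⟩ := hex
  apply le_antisymm
  · apply Metric.diam_le_of_forall_dist_le (hij ▸ dist_nonneg)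
    rintro _ ⟨i, rfl⟩ _ ⟨j, rfl⟩
    exact hle i j
  · rw [← hij]
    exact Metric.dist_le_diam_of_mem (Set.finite_range p).isBounded (Set.mem_range_self i)
      (Set.mem_range_self j)

open scoped InnerProductSpace in
/-- A symmetric idempotent real matrix of trace `d` is the Gram matrix of vectors in `ℝ^d`. -/
theorem exists_gram_of_isIdempotent {n d : ℕ} (F : Matrix (Fin n) (Fin n) ℝ)
    (hs : F.transpose = F) (hi : F * F = F) (ht : F.trace = d) :
    ∃ f : Fin n → EuclideanSpace ℝ (Fin d), ∀ v w, ⟪f v, f w⟫_ℝ = F v w := by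
  classical
  set b0 := (EuclideanSpace.basisFun (Fin n) ℝ).toBasis with hb0
  set T : EuclideanSpace ℝ (Fin n) →ₗ[ℝ] EuclideanSpace ℝ (Fin n) := Matrix.toLin b0 b0 F with hT
  have hTT : IsIdempotentElem T := by
    show T * T = T
    rw [hT, Module.End.mul_eq_comp, ← Matrix.toLin_mul, hi]
  have htr : LinearMap.trace ℝ _ T = (Module.finrank ℝ (LinearMap.range T) : ℝ) :=
    (LinearMap.IsIdempotentElem.isProj_range T hTT).trace
  have htr2 : LinearMap.trace ℝ _ T = F.trace := by
    rw [LinearMap.trace_eq_matrix_trace ℝ b0, hT, LinearMap.toMatrix_toLin]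
  have hd : Module.finrank ℝ (LinearMap.range T) = d := by
    have : (Module.finrank ℝ (LinearMap.range T) : ℝ) = (d : ℝ) := by rw [← htr, htr2, ht]
    exact_mod_cast this
  let b := (stdOrthonormalBasis ℝ (LinearMap.range T)).reindex (finCongr hd)
  have hcoord : ∀ v j, (T (b0 v)) j = F j v := by
    intro v j
    rw [hT, Matrix.toLin_self]
    simp [hb0, Pi.single_apply]
  refine ⟨fun v => b.repr ⟨T (b0 v), LinearMap.mem_range_self _ _⟩, fun v w => ?_⟩
  rw [LinearIsometryEquiv.inner_map_map, Submodule.coe_inner, PiLp.inner_apply]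
  have h2 : F v w = ∑ k, F k v * F k w := by
    conv_lhs => rw [← hi]
    rw [Matrix.mul_apply]
    refine Finset.sum_congr rfl fun k _ => ?_
    have : F v k = F k v := by
      conv_lhs => rw [← hs]
      rfl
    rw [this]
  rw [h2]
  refine Finset.sum_congr rfl fun k _ => ?_
  simp only [hcoord]
  simp [mul_comm]

end Vale.Agent.P052
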