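import Mathlib

/-!
Definitions for Borsuk's partition problem.
-/

namespace Vale.Agent.P052

/-- `Y` is the union of `k` subsets, each of diameter strictly smaller than the diameter of `Y`. -/
def IsUnionOfSmaller {E : Type*} [PseudoMetricSpace E] (Y : Set E) (k : ℕ) : Prop :=
  ∃ S : Fin k → Set E, (⋃ i, S i) = Y ∧ ∀ i, Metric.diam (S i) < Metric.diam Y

/-- Borsuk's conjecture in dimension `d`, that is `b(d) ≤ d + 1`: every bounded subset of `ℝ^d` of
positive diameter is the union of at most `d + 1` subsets of strictly smaller diameter. -/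
def BorsukConjecture (d : ℕ) : Prop :=
  ∀ Y : Set (EuclideanSpace ℝ (Fin d)), Bornology.IsBounded Y → 0 < Metric.diam Y →
    ∃ k ≤ d + 1, IsUnionOfSmaller Y k

end Vale.Agent.P052
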