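import Vale.Agent.P052.Pairs
import Vale.Agent.P052.CliqueChecks
import Vale.Agent.P052.CliqueChecksTwo

/-!
The clique bound in terms of the adjacency rows.
-/

namespace Vale.Agent.P052

/-- The check that the clique data agree with the row `r` of vertex `v`. -/
def linkOK (v r : ℕ) : Bool :=
  Nat.beq (Nat.shiftRight (upr (Nat.mod (Nat.pow 2 v) 347)) 64)
    (Nat.shiftLeft (Nat.shiftRight (Nat.mod r (Nat.pow 2 326)) (Nat.add v 1)) (Nat.add v 1))

theorem link_check : loop linkOK (rows.take 326) 0 = true := by decide +kernel

theorem up_testBit (v j : ℕ) (hv : v < 326) (hj : j < 326) (hvj : v < j) :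
    (up v).testBit j = (row v).testBit j := by
  have hlen : v < (rows.take 326).length := by
    rw [List.length_take, rows_length]; omega
  have := loop_spec linkOK _ 0 link_check v hlen
  rw [zero_add, List.getElem_take, ← row_eq v (by omega)] at this
  unfold linkOK at this
  rw [Nat.beq_eq] at this
  have h2 : up v = (row v % 2 ^ 326) >>> (v + 1) <<< (v + 1) := this
  rw [h2, Nat.testBit_shiftLeft, Nat.testBit_shiftRight, Nat.testBit_mod_two_pow]
  have e : v + 1 + (j - (v + 1)) = j := by omega
  rw [e]
  have h3 : decide (j ≥ v + 1) = true := by simpa using hvj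
  have h4 : decide (j < 326) = true := by simpa using hj
  rw [h3, h4]
  simp

theorem diag_check : loop (fun i r => Bool.not (bit r i)) rows 0 = true := by decide +kernel

theorem row_testBit_self (i : ℕ) (hi : i < 416) : (row i).testBit i = false := by
  have hlen : i < rows.length := by rw [rows_length]; exact hi
  have := loop_spec _ _ 0 diag_check i hlen
  rw [zero_add, ← row_eq i hi, bit_eq] at this
  simpa using this

theorem chk_all (v : ℕ) (hv : v < 326) : chk 400 5 (upr (2 ^ v % 347)) = true := by
  by_cases h : v < 63
  · exact chk_low v (Nat.zero_le _) h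
  · exact chk_high v (by omega) hv

/-- No six of the first 326 vertices are pairwise adjacent. -/
theorem clique_card_le (s : Finset ℕ) (hs : ∀ i ∈ s, i < 326)
    (h2 : ∀ i ∈ s, ∀ j ∈ s, i < j → (row i).testBit j = true) : s.card ≤ 5 :=
  card_le_five chk_all s hs fun i hi j hj hij => by
    rw [up_testBit i j (hs i hi) (hs j hj) hij]
    exact h2 i hi j hj hij

end Vale.Agent.P052
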