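import Vale.Agent.P052.Core
import Vale.Agent.P052.Link

/-!
The projection matrix of rank 63 and the configuration of 321 points.
-/

namespace Vale.Agent.P052

open Matrix

/-- The real indicator vector of the mask `a`. -/
noncomputable def ind (a : ℕ) : Fin 416 → ℝ := fun k => if a.testBit k then 1 else 0

theorem ind_dotProduct_ind (a b : ℕ) : ind a ⬝ᵥ ind b = count 416 (a &&& b) := by
  unfold count dotProduct
  rw [← Fin.sum_univ_eq_sum_range (fun k => ((a &&& b).testBit k).toNat), Nat.cast_sum]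
  refine Finset.sum_congr rfl fun k _ => ?_
  unfold ind
  rw [Nat.testBit_and]
  cases a.testBit k <;> cases b.testBit k <;> simp

/-- The adjacency matrix. -/
noncomputable def A : Matrix (Fin 416) (Fin 416) ℝ := fun i j => ind (row i) j

theorem A_symm (i j : Fin 416) : A i j = A j i := by
  unfold A ind
  rw [((row_facts i i.2).2 j j.2).2]

theorem A_transpose : A.transpose = A := by
  ext i j; exact A_symm j i

theorem A_self (i : Fin 416) : A i i = 0 := by
  unfold A ind
  rw [row_testBit_self i i.2]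
  simp

/-- The all-ones vector. -/
def one : Fin 416 → ℝ := fun _ => 1

theorem A_mul_A : A * A = (80 : ℝ) • (1 : Matrix (Fin 416) (Fin 416) ℝ) + (16 : ℝ) • A
    + (20 : ℝ) • vecMulVec one one := by
  ext i j
  have h : (A * A) i j = ind (row i) ⬝ᵥ ind (row j) := by
    rw [Matrix.mul_apply]
    unfold dotProduct
    refine Finset.sum_congr rfl fun k _ => ?_
    rw [A_symm k j]; rfl
  rw [h, ind_dotProduct_ind, ((row_facts i i.2).2 j j.2).1]
  simp only [Matrix.add_apply, Matrix.smul_apply, vecMulVec_apply, one, smul_eq_mul]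
  by_cases hij : i = j
  · subst hij
    rw [if_pos rfl, Matrix.one_apply_eq, A_self]
    norm_num
  · have hij' : (i : ℕ) ≠ j := fun hc => hij (Fin.ext hc)
    rw [if_neg hij', Matrix.one_apply_ne hij]
    unfold A ind
    by_cases hb : (row i).testBit j = true
    · rw [if_pos hb, if_pos hb]; norm_num
    · rw [if_neg hb, if_neg hb]; norm_num

theorem A_mulVec_one : A *ᵥ one = (100 : ℝ) • one := by
  ext i
  have h : (A *ᵥ one) i = ind (row i) ⬝ᵥ ind (row i) := by
    unfold mulVec dotProduct one A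
    refine Finset.sum_congr rfl fun k _ => ?_
    unfold ind
    by_cases hb : (row i).testBit k = true <;> simp [hb]
  rw [h, ind_dotProduct_ind, ((row_facts i i.2).2 i i.2).1, if_pos rfl]
  simp [one]

/-- The indicator vector of block `t`. -/
noncomputable def blk (t : ℕ) : Fin 416 → ℝ := ind (blockMask t)

theorem blk_check : ∀ i < 416, ∀ t < 3, expectBlock i t =
    20 * ((blockMask t).testBit i).toNat + (if i < 320 then 8 else 0) := by
  decide +kernel

theorem A_mulVec_blk (t : ℕ) (ht : t < 3) (i : Fin 416) :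
    (A *ᵥ blk t) i = 20 * blk t i + (if (i : ℕ) < 320 then 8 else 0) := by
  have h : (A *ᵥ blk t) i = ind (row i) ⬝ᵥ ind (blockMask t) := rfl
  rw [h, ind_dotProduct_ind, (row_facts i i.2).1 t ht, blk_check i i.2 t ht]
  unfold blk ind
  by_cases hb : (blockMask t).testBit i = true <;> by_cases hi : (i : ℕ) < 320 <;>
    simp [hb, hi] <;> norm_num

theorem blk_inner_check : ∀ s < 3, ∀ t < 3,
    Nat.mod (Nat.land (spread 416 (blockMask s)) (spread 416 (blockMask t))) 511 =
      if s = t then 32 else 0 := by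
  decide +kernel

theorem blk_dotProduct_blk (s t : ℕ) (hs : s < 3) (ht : t < 3) :
    blk s ⬝ᵥ blk t = if s = t then 32 else 0 := by
  unfold blk
  rw [ind_dotProduct_ind, ← land_mod 416 _ _ (by norm_num), blk_inner_check s hs t ht]
  split_ifs <;> simp

theorem one_dotProduct_blk (t : ℕ) (ht : t < 3) : one ⬝ᵥ blk t = 32 := by
  have h : one ⬝ᵥ blk t = blk t ⬝ᵥ blk t := by
    unfold dotProduct one blk
    refine Finset.sum_congr rfl fun k _ => ?_
    unfold ind; split_ifs <;> simp
  rw [h, blk_dotProduct_blk t t ht ht, if_pos rfl]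

/-- The projection matrix of rank 65. -/
noncomputable def E : Matrix (Fin 416) (Fin 416) ℝ :=
  (1 / 24 : ℝ) • A + (1 / 6 : ℝ) • (1 : Matrix (Fin 416) (Fin 416) ℝ)
    - (1 / 96 : ℝ) • vecMulVec one one

/-- The first vector to be projected away. -/
noncomputable def u1 : Fin 416 → ℝ := blk 0 - blk 1

/-- The second vector to be projected away. -/
noncomputable def u2 : Fin 416 → ℝ := blk 0 + blk 1 - (2 : ℝ) • blk 2

theorem A_mulVec_u1 : A *ᵥ u1 = (20 : ℝ) • u1 := by
  ext i
  unfold u1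
  rw [mulVec_sub, Pi.sub_apply, A_mulVec_blk 0 (by norm_num), A_mulVec_blk 1 (by norm_num)]
  simp only [Pi.smul_apply, Pi.sub_apply, smul_eq_mul]
  ring

theorem A_mulVec_u2 : A *ᵥ u2 = (20 : ℝ) • u2 := by
  ext i
  unfold u2
  rw [mulVec_sub, mulVec_add, mulVec_smul, Pi.sub_apply, Pi.add_apply, Pi.smul_apply,
    A_mulVec_blk 0 (by norm_num), A_mulVec_blk 1 (by norm_num), A_mulVec_blk 2 (by norm_num)]
  simp only [Pi.smul_apply, Pi.sub_apply, Pi.add_apply, smul_eq_mul]
  ring

theorem u1_dot_u1 : u1 ⬝ᵥ u1 = 64 := by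
  unfold u1
  simp only [sub_dotProduct, dotProduct_sub]
  rw [blk_dotProduct_blk 0 0 (by norm_num) (by norm_num),
    blk_dotProduct_blk 0 1 (by norm_num) (by norm_num),
    blk_dotProduct_blk 1 0 (by norm_num) (by norm_num),
    blk_dotProduct_blk 1 1 (by norm_num) (by norm_num)]
  norm_num

theorem u2_dot_u2 : u2 ⬝ᵥ u2 = 192 := by
  unfold u2
  simp only [sub_dotProduct, dotProduct_sub, add_dotProduct, dotProduct_add, smul_dotProduct,
    dotProduct_smul, smul_eq_mul]
  rw [blk_dotProduct_blk 0 0 (by norm_num) (by norm_num),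
    blk_dotProduct_blk 0 1 (by norm_num) (by norm_num),
    blk_dotProduct_blk 1 0 (by norm_num) (by norm_num),
    blk_dotProduct_blk 1 1 (by norm_num) (by norm_num),
    blk_dotProduct_blk 0 2 (by norm_num) (by norm_num),
    blk_dotProduct_blk 2 0 (by norm_num) (by norm_num),
    blk_dotProduct_blk 1 2 (by norm_num) (by norm_num),
    blk_dotProduct_blk 2 1 (by norm_num) (by norm_num),
    blk_dotProduct_blk 2 2 (by norm_num) (by norm_num)]
  norm_num

theorem u1_dot_u2 : u1 ⬝ᵥ u2 = 0 := by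
  unfold u1 u2
  simp only [sub_dotProduct, dotProduct_sub, dotProduct_add, dotProduct_smul, smul_eq_mul]
  rw [blk_dotProduct_blk 0 0 (by norm_num) (by norm_num),
    blk_dotProduct_blk 0 1 (by norm_num) (by norm_num),
    blk_dotProduct_blk 1 0 (by norm_num) (by norm_num),
    blk_dotProduct_blk 1 1 (by norm_num) (by norm_num),
    blk_dotProduct_blk 0 2 (by norm_num) (by norm_num),
    blk_dotProduct_blk 1 2 (by norm_num) (by norm_num)]
  norm_num

theorem one_dot_u1 : one ⬝ᵥ u1 = 0 := by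
  unfold u1
  rw [dotProduct_sub, one_dotProduct_blk 0 (by norm_num), one_dotProduct_blk 1 (by norm_num)]
  norm_num

theorem one_dot_u2 : one ⬝ᵥ u2 = 0 := by
  unfold u2
  rw [dotProduct_sub, dotProduct_add, dotProduct_smul, one_dotProduct_blk 0 (by norm_num),
    one_dotProduct_blk 1 (by norm_num), one_dotProduct_blk 2 (by norm_num)]
  norm_num

theorem one_dot_one : one ⬝ᵥ one = 416 := by
  unfold one dotProduct
  simp

theorem vecMul_A (x : Fin 416 → ℝ) : x ᵥ* A = A *ᵥ x := by
  rw [← mulVec_transpose, A_transpose]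

/-- A matrix algebra computation: the matrix below is idempotent. -/
theorem idem_of_relations {R : Type*} [Ring R] [Algebra ℝ R] (a j p q : R)
    (haa : a * a = (80 : ℝ) • 1 + (16 : ℝ) • a + (20 : ℝ) • j)
    (haj : a * j = (100 : ℝ) • j) (hja : j * a = (100 : ℝ) • j)
    (hjj : j * j = (416 : ℝ) • j)
    (hap : a * p = (20 : ℝ) • p) (hpa : p * a = (20 : ℝ) • p)
    (haq : a * q = (20 : ℝ) • q) (hqa : q * a = (20 : ℝ) • q)
    (hjp : j * p = 0) (hpj : p * j = 0) (hjq : j * q = 0) (hqj : q * j = 0)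
    (hpp : p * p = (64 : ℝ) • p) (hqq : q * q = (192 : ℝ) • q)
    (hpq : p * q = 0) (hqp : q * p = 0) :
    ((1 / 24 : ℝ) • a + (1 / 6 : ℝ) • 1 - (1 / 96 : ℝ) • j - (1 / 64 : ℝ) • p
      - (1 / 192 : ℝ) • q) *
    ((1 / 24 : ℝ) • a + (1 / 6 : ℝ) • 1 - (1 / 96 : ℝ) • j - (1 / 64 : ℝ) • p
      - (1 / 192 : ℝ) • q) =
    (1 / 24 : ℝ) • a + (1 / 6 : ℝ) • 1 - (1 / 96 : ℝ) • j - (1 / 64 : ℝ) • p
      - (1 / 192 : ℝ) • q := by
  simp only [add_mul, mul_add, sub_mul, mul_sub, smul_mul_assoc, mul_smul_comm, one_mul, mul_one,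
    haa, haj, hja, hjj, hap, hpa, haq, hqa, hjp, hpj, hjq, hqj, hpp, hqq, hpq, hqp, smul_add,
    smul_sub, smul_zero]
  module

/-- The projection matrix of rank 63. -/
noncomputable def F : Matrix (Fin 416) (Fin 416) ℝ :=
  (1 / 24 : ℝ) • A + (1 / 6 : ℝ) • 1 - (1 / 96 : ℝ) • vecMulVec one one
    - (1 / 64 : ℝ) • vecMulVec u1 u1 - (1 / 192 : ℝ) • vecMulVec u2 u2

theorem F_mul_F : F * F = F := by
  unfold F
  apply idem_of_relations
  · exact A_mul_A
  · rw [mul_vecMulVec, A_mulVec_one, smul_vecMulVec]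
  · rw [vecMulVec_mul, vecMul_A, A_mulVec_one, vecMulVec_smul]
  · rw [vecMulVec_mul_vecMulVec, one_dot_one, vecMulVec_smul]
  · rw [mul_vecMulVec, A_mulVec_u1, smul_vecMulVec]
  · rw [vecMulVec_mul, vecMul_A, A_mulVec_u1, vecMulVec_smul]
  · rw [mul_vecMulVec, A_mulVec_u2, smul_vecMulVec]
  · rw [vecMulVec_mul, vecMul_A, A_mulVec_u2, vecMulVec_smul]
  · rw [vecMulVec_mul_vecMulVec, one_dot_u1, zero_smul, vecMulVec_zero]
  · rw [vecMulVec_mul_vecMulVec, dotProduct_comm, one_dot_u1, zero_smul, vecMulVec_zero]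
  · rw [vecMulVec_mul_vecMulVec, one_dot_u2, zero_smul, vecMulVec_zero]
  · rw [vecMulVec_mul_vecMulVec, dotProduct_comm, one_dot_u2, zero_smul, vecMulVec_zero]
  · rw [vecMulVec_mul_vecMulVec, u1_dot_u1, vecMulVec_smul]
  · rw [vecMulVec_mul_vecMulVec, u2_dot_u2, vecMulVec_smul]
  · rw [vecMulVec_mul_vecMulVec, u1_dot_u2, zero_smul, vecMulVec_zero]
  · rw [vecMulVec_mul_vecMulVec, dotProduct_comm, u1_dot_u2, zero_smul, vecMulVec_zero]

theorem F_transpose : F.transpose = F := by
  unfold F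
  simp only [transpose_sub, transpose_add, transpose_smul, A_transpose, transpose_one,
    transpose_vecMulVec]

theorem F_trace : F.trace = (63 : ℕ) := by
  have hA : A.trace = 0 := by
    unfold Matrix.trace
    refine Finset.sum_eq_zero fun i _ => ?_
    rw [diag_apply, A_self]
  unfold F
  simp only [trace_sub, trace_add, trace_smul, hA, trace_one, trace_vecMulVec, one_dot_one,
    u1_dot_u1, u2_dot_u2, smul_eq_mul, Fintype.card_fin]
  norm_num

theorem blk_low_check : ∀ i < 320, ∀ t < 3, (blockMask t).testBit i = false := by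
  decide +kernel

theorem blk_320_check : (blockMask 0).testBit 320 = true ∧ (blockMask 1).testBit 320 = false ∧
    (blockMask 2).testBit 320 = false := by
  decide +kernel

theorem blk_low (i : Fin 416) (hi : (i : ℕ) < 320) (t : ℕ) (ht : t < 3) : blk t i = 0 := by
  unfold blk ind
  rw [blk_low_check i hi t ht]
  simp

theorem F_apply (i j : Fin 416) : F i j = 1 / 24 * A i j +
    1 / 6 * (1 : Matrix (Fin 416) (Fin 416) ℝ) i j - 1 / 96 * (one i * one j)
    - 1 / 64 * (u1 i * u1 j) - 1 / 192 * (u2 i * u2 j) := rfl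

theorem F_low (i j : Fin 416) (hi : (i : ℕ) < 320) :
    F i j = A i j / 24 + (if i = j then 1 / 6 else 0) - 1 / 96 := by
  have h1 : u1 i = 0 := by
    unfold u1
    rw [Pi.sub_apply, blk_low i hi 0 (by norm_num), blk_low i hi 1 (by norm_num), sub_zero]
  have h2 : u2 i = 0 := by
    unfold u2
    rw [Pi.sub_apply, Pi.add_apply, Pi.smul_apply, blk_low i hi 0 (by norm_num),
      blk_low i hi 1 (by norm_num), blk_low i hi 2 (by norm_num)]
    simp
  rw [F_apply, h1, h2, Matrix.one_apply]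
  unfold one
  split_ifs <;> ring

theorem F_320 : F 320 320 = 13 / 96 := by
  have hv : ((320 : Fin 416) : ℕ) = 320 := rfl
  have hb : blk 0 320 = 1 ∧ blk 1 320 = 0 ∧ blk 2 320 = 0 := by
    obtain ⟨h0, h1, h2⟩ := blk_320_check
    unfold blk ind
    rw [hv, h0, h1, h2]
    simp
  have h1 : u1 320 = 1 := by
    unfold u1
    rw [Pi.sub_apply, hb.1, hb.2.1, sub_zero]
  have h2 : u2 320 = 1 := by
    unfold u2
    rw [Pi.sub_apply, Pi.add_apply, Pi.smul_apply, hb.1, hb.2.1, hb.2.2]
    simp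
  rw [F_apply, h1, h2, Matrix.one_apply_eq, A_self]
  unfold one
  norm_num

end Vale.Agent.P052
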