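import Vale.Agent.P052.Data
import Vale.Agent.P052.Eval

/-!
The pair counts of the graph: numbers of common neighbours, symmetry, and the numbers of neighbours
in the three special blocks.
-/

namespace Vale.Agent.P052

/-- The rows in spread form. -/
def srows : List ℕ := rows.map (spread 416)

/-- The mask of the block `320 + 32 * k, …, 320 + 32 * k + 31`. -/
def blockMask (k : ℕ) : ℕ :=
  Nat.mul (Nat.sub (Nat.pow 2 32) 1) (Nat.pow 2 (Nat.add 320 (Nat.mul 32 k)))

/-- The expected number of neighbours of vertex `i` in block `k`. -/
def expectBlock (i k : ℕ) : ℕ :=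
  cond (Nat.ble 320 i) (cond (Nat.beq (Nat.div (Nat.sub i 320) 32) k) 20 0) 8

/-- The check of one pair: number of common neighbours, and symmetry. -/
def pairOK (i r s j t : ℕ) : Bool :=
  and (Nat.beq (Nat.mod (Nat.land s t) 511) (cond (Nat.beq i j) 100 (cond (bit r j) 36 20)))
    (Nat.beq (Nat.mod (Nat.shiftRight t (Nat.mul 9 i)) 2) (Nat.mod (Nat.shiftRight r j) 2))

/-- The check of one block count. -/
def blockOK (i s k : ℕ) : Bool :=
  Nat.beq (Nat.mod (Nat.land s (spread 416 (blockMask k))) 511) (expectBlock i k)

/-- The checks for the row `r` with number `i`. -/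
def rowOK (i r : ℕ) : Bool :=
  force (spread 416 r) fun s =>
    and (and (blockOK i s 0) (and (blockOK i s 1) (blockOK i s 2))) (loop (pairOK i r s) srows 0)

theorem chunk_0 : loop rowOK ((rows.drop 0).take 104) 0 = true := by decide +kernel

theorem chunk_1 : loop rowOK ((rows.drop 104).take 104) 104 = true := by decide +kernel

theorem chunk_2 : loop rowOK ((rows.drop 208).take 104) 208 = true := by decide +kernel

theorem chunk_3 : loop rowOK ((rows.drop 312).take 104) 312 = true := by decide +kernel

theorem rows_length : rows.length = 416 := by decide +kernel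

theorem srows_length : srows.length = 416 := by
  unfold srows; rw [List.length_map, rows_length]

/-- The adjacency row of vertex `i`. -/
def row (i : ℕ) : ℕ := rows.getD i 0

theorem row_eq (i : ℕ) (hi : i < 416) : row i = rows[i]'(by rw [rows_length]; exact hi) := by
  unfold row
  exact List.getD_eq_getElem _ _ _

theorem chunk_spec (c : ℕ) (h : loop rowOK ((rows.drop c).take 104) c = true) (i : ℕ)
    (hi : i < 416) (h1 : c ≤ i) (h2 : i < c + 104) : rowOK i (row i) = true := by
  have hlen : i - c < ((rows.drop c).take 104).length := by
    rw [List.length_take, List.length_drop, rows_length]; omega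
  have := loop_spec rowOK _ c h (i - c) hlen
  rw [show c + (i - c) = i by omega] at this
  rw [row_eq i hi]
  convert this using 2
  rw [List.getElem_take, List.getElem_drop]
  congr 1
  omega

theorem rowOK_all (i : ℕ) (hi : i < 416) : rowOK i (row i) = true := by
  by_cases h0 : i < 104
  · exact chunk_spec 0 chunk_0 i hi (by omega) (by omega)
  by_cases h1 : i < 208
  · exact chunk_spec 104 chunk_1 i hi (by omega) (by omega)
  by_cases h2 : i < 312
  · exact chunk_spec 208 chunk_2 i hi (by omega) (by omega)
  · exact chunk_spec 312 chunk_3 i hi (by omega) (by omega)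

theorem spread_bit (n m i : ℕ) (hi : i < n) : spread n m / 512 ^ i % 2 = m / 2 ^ i % 2 := by
  induction n generalizing m i with
  | zero => omega
  | succ n ih =>
    rw [spread_succ]
    cases i with
    | zero => simp; omega
    | succ i =>
      have h1 : (m % 2 + 512 * spread n (m / 2)) / 512 ^ (i + 1) = spread n (m / 2) / 512 ^ i := by
        rw [pow_succ', ← Nat.div_div_eq_div_mul]
        congr 1
        omega
      rw [h1, ih (m / 2) i (by omega), pow_succ', Nat.div_div_eq_div_mul]

theorem row_facts (i : ℕ) (hi : i < 416) :
    (∀ k < 3, count 416 (row i &&& blockMask k) = expectBlock i k) ∧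
    ∀ j < 416, count 416 (row i &&& row j) =
      (if i = j then 100 else if (row i).testBit j then 36 else 20) ∧
      (row j).testBit i = (row i).testBit j := by
  have h := rowOK_all i hi
  unfold rowOK at h
  rw [force_eq, Bool.and_eq_true, Bool.and_eq_true, Bool.and_eq_true] at h
  obtain ⟨⟨b0, b1, b2⟩, hl⟩ := h
  have hb : ∀ k, blockOK i (spread 416 (row i)) k = true →
      count 416 (row i &&& blockMask k) = expectBlock i k := by
    intro k hk
    unfold blockOK at hk
    rw [land_mod 416 _ _ (by norm_num), Nat.beq_eq] at hk
    exact hk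
  refine ⟨?_, ?_⟩
  · intro k hk
    interval_cases k
    · exact hb 0 b0
    · exact hb 1 b1
    · exact hb 2 b2
  · intro j hj
    have hlj : j < srows.length := by rw [srows_length]; exact hj
    have := loop_spec _ _ 0 hl j hlj
    have hs : srows[j] = spread 416 (row j) := by
      rw [row_eq j hj]
      exact List.getElem_map (spread 416)
    rw [hs, zero_add] at this
    unfold pairOK at this
    rw [land_mod 416 _ _ (by norm_num), Bool.and_eq_true, Nat.beq_eq, Nat.beq_eq, bit_eq] at this
    obtain ⟨h1, h2⟩ := this
    refine ⟨?_, ?_⟩
    · rw [h1]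
      by_cases hij : i = j
      · subst hij
        rw [if_pos rfl]
        have : Nat.beq i i = true := by rw [Nat.beq_eq]
        rw [this, cond_true]
      · rw [if_neg hij]
        have : Nat.beq i j = false := by
          rw [Bool.eq_false_iff]; intro hc; rw [Nat.beq_eq] at hc; exact hij hc
        rw [this, cond_false]
        cases (row i).testBit j <;> rfl
    · have e1 : Nat.mod (Nat.shiftRight (spread 416 (row j)) (Nat.mul 9 i)) 2 =
          (row j) / 2 ^ i % 2 := by
        rw [← spread_bit 416 (row j) i hi]
        show (spread 416 (row j)) >>> (9 * i) % 2 = _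
        rw [Nat.shiftRight_eq_div_pow, pow_mul]
        norm_num
      have e2 : Nat.mod (Nat.shiftRight (row i) j) 2 = (row i) / 2 ^ j % 2 := by
        show (row i) >>> j % 2 = _
        rw [Nat.shiftRight_eq_div_pow]
      rw [e1, e2] at h2
      rw [Nat.testBit_eq_decide_div_mod_eq, Nat.testBit_eq_decide_div_mod_eq, h2]

end Vale.Agent.P052
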